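import Vale.Agent.P032W.H913.Clos
import Vale.Agent.P032W.H913.CertT333
import Vale.Agent.P032W.H913.CertC
import Vale.Agent.P032W.H913.CertD
import Vale.Agent.P032W.H913.CertE
import Vale.Agent.P032W.H913.CertG0
import Vale.Agent.P032W.H913.CertG1
import Vale.Agent.P032W.H913.CertH0
import Vale.Agent.P032W.H913.CertH1
import Vale.Agent.P032W.H913.CertH2
import Vale.Agent.P032W.H892.SixTop

/-!
# P032: the sixteen six-fold events do not occur

* `no_after`, `no_before` : after a rotation of the inner letters (before one) the word is not diametral,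
* `dead2`, ..., `dead7` : the closures,
* `no_at6` : none of the sixteen events of `tab6` occurs at a six-coloured point with connected colours.
-/

open Set Filter Topology Metric

noncomputable section

namespace Vale.Agent.P032.H913

open Vale.Agent.P032.Six Vale.Agent.P032.H892 Vale.Agent.P032.S5.H767

variable {U : Fin 6 → Set ℂ} {T : ℂ → Set (Fin 6)} {z : ℂ}

theorem cl_eq (σ : Fin 6 → Fin 6) {x : ℕ} {y : Fin 6} (h : x = y.val) : cl σ x = σ y := by rw [h, cl_val]

/-- the word `3 4 5 0 1 2` -/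
theorem w3_eq : ∀ k : Fin 6, wc 69987 k.val = (k + 3).val := by decide +kernel

theorem stable_words (C : C6 U T z) {u : ℝ} {σ : Fin 6 → Fin 6} (hσ : Function.Injective σ) (hR : Rt U T z u σ)
    (h3 : ∀ k : Fin 6, (LR U T z (u + k.val)).2 = σ (k + 3)) :
    ∀ v ∈ Ioc u (u + 1), ∀ k : Fin 6, LL U T z (v + k.val) = (σ k, σ (k + 3)) := by
  intro v hv k
  obtain ⟨x, hx, h⟩ := run_words C hσ hR (xb := wU) (xa := 69987) (V := [69987]) (unk _)
    (fun k => by rw [cl_eq σ (w3_eq k)]; exact h3 k) (by simp) (by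
      intro xc hxc β h0 h1 hA hB
      rw [List.mem_singleton] at hxc
      subst hxc
      exact step8 C hσ h0 h1 (L := CertT333.lw) hA hB CertT333.okd CertT333.okl CertT333.ok) v hv
  rw [List.mem_singleton] at hx
  subst hx
  refine Prod.ext (frozen_L C hσ hR hv k) ?_
  rw [h k, cl_eq σ (w3_eq k)]

theorem no_after (C : C6 U T z) (hct : Ctn U T z) {u : ℝ} {σ : Fin 6 → Fin 6} (hσ : Function.Injective σ)
    (hR : Rt U T z u σ) (h3 : ∀ k : Fin 6, (LR U T z (u + k.val)).2 = σ (k + 3)) : False := by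
  have key := stable_words C hσ hR h3
  have hR3 : ∀ v ∈ Ico u (u + 1), ∀ k : Fin 6, (SR U T z v).1 k = (σ k, σ (k + 3)) := by
    intro v hv k
    have h1 : ∀ᶠ y in 𝓝[>] v, y ∈ Ioo v (u + 1) := Ioo_mem_nhdsGT hv.2
    obtain ⟨y, hy1, hy2⟩ := ((C.ev_right v).and h1).exists
    rw [← hy1.2]
    exact key y ⟨lt_of_le_of_lt hv.1 hy2.1, hy2.2.le⟩ k
  refine C.no_diam hct hσ (τ := u) (hR3 u ⟨le_rfl, by linarith⟩) fun v hv hc => hc ?_
  funext k
  rw [hR3 v ⟨hv.1.le, hv.2⟩ k]
  exact key v ⟨hv.1, hv.2.le⟩ k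

theorem no_before (C : C6 U T z) (hct : Ctn U T z) {u : ℝ} {σ : Fin 6 → Fin 6} (hσ : Function.Injective σ)
    (hL : ∀ k : Fin 6, (SL U T z u).1 k = (σ k, σ (k + 3)))
    (hR : ∀ k : Fin 6, ((SR U T z u).1 k).1 = σ (k + 1)) : False := by
  have e1 : ∀ k : Fin 6, (SR (fun i => cj ⁻¹' U i) (fun x => T (cj x)) (cj z) (-u)).1 k =
      (σ (-k), σ (-(k + 3))) := by
    intro k
    rw [C.sr_mirror, neg_neg]
    show (SL U T z u).1 (-k) = (σ (-k), σ (-(k + 3)))
    rw [hL]
    have : ∀ k : Fin 6, -k + 3 = -(k + 3) := by decide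
    rw [this]
  have e2 : ∀ k : Fin 6, ((SL (fun i => cj ⁻¹' U i) (fun x => T (cj x)) (cj z) (-u)).1 k).1 = σ (-(k - 1)) := by
    intro k
    rw [C.sl_mirror, neg_neg]
    show ((SR U T z u).1 (-k)).1 = σ (-(k - 1))
    rw [hR]
    have : ∀ k : Fin 6, -k + 1 = -(k - 1) := by decide
    rw [this]
  refine no_after C.mirror (ctn_isom cj (by rw [cj_cj]; exact hct)) (u := -u) (σ := fun k => σ (-k))
    (fun a b hab => neg_injective (hσ hab)) ⟨fun k => e2 k, fun k => ?_⟩ fun k => ?_
  · exact congrArg Prod.fst (e1 k)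
  · exact congrArg Prod.snd (e1 k)

theorem tab_in : ∀ (n : Fin 16) (k : Fin 6), (tab6 n).1 k = k ∧ (tab6 n).2.2.1 k = k + 1 := by
  intro n k
  fin_cases n <;> fin_cases k <;> exact ⟨rfl, rfl⟩

theorem at6_rt {u : ℝ} {σ : Fin 6 → Fin 6} {n : Fin 16} (h : At6 U T z u σ n) :
    Rt U T z u (fun k => σ (k + 1)) := by
  refine ⟨fun k => ?_, fun k => ?_⟩
  · have := congrArg Prod.fst (h.1 k)
    rw [(tab_in n k).1] at this
    show (LL U T z (u + k.val)).1 = σ (k - 1 + 1)
    rw [sub_add_cancel]; exact this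
  · have := congrArg Prod.fst (h.2 k)
    rw [(tab_in n k).2] at this
    exact this

theorem at6_b {u : ℝ} {σ : Fin 6 → Fin 6} {n : Fin 16} (h : At6 U T z u σ n) {x : ℕ}
    (hx : ∀ k : Fin 6, wc x k.val = ((tab6 n).2.1 k - 1).val) (k : Fin 6) :
    (LL U T z (u + k.val)).2 = cl (fun k => σ (k + 1)) (wc x k.val) := by
  rw [cl_eq _ (hx k)]
  have := congrArg Prod.snd (h.1 k)
  show (LL U T z (u + k.val)).2 = σ ((tab6 n).2.1 k - 1 + 1)
  rw [sub_add_cancel]; exact this

theorem at6_a {u : ℝ} {σ : Fin 6 → Fin 6} {n : Fin 16} (h : At6 U T z u σ n) {x : ℕ}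
    (hx : ∀ k : Fin 6, wc x k.val = ((tab6 n).2.2.2 k - 1).val) (k : Fin 6) :
    (LR U T z (u + k.val)).2 = cl (fun k => σ (k + 1)) (wc x k.val) := by
  rw [cl_eq _ (hx k)]
  have := congrArg Prod.snd (h.2 k)
  show (LR U T z (u + k.val)).2 = σ ((tab6 n).2.2.2 k - 1 + 1)
  rw [sub_add_cancel]; exact this

theorem inj_succ {σ : Fin 6 → Fin 6} (hσ : Function.Injective σ) : Function.Injective fun k => σ (k + 1) :=
  fun _ _ hab => add_right_cancel (hσ hab)

theorem dead2 : Dead 2 := by
  intro U T z C u σ inj h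
  refine dead_words C (inj_succ inj) (at6_rt h) (at6_b h (x := 68369) (by decide +kernel))
    (at6_a h (x := 72491) (by decide +kernel)) (V := [72491]) (by simp) (by decide +kernel)
    fun xc hxc β h0 h1 hA hB => ?_
  rw [List.mem_singleton] at hxc
  subst hxc
  exact step8 C (inj_succ inj) h0 h1 (L := CertC.lw) hA hB CertC.okd CertC.okl CertC.ok

theorem dead3 : Dead 3 := by
  intro U T z C u σ inj h
  refine dead_words C (inj_succ inj) (at6_rt h) (at6_b h (x := 67929) (by decide +kernel))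
    (at6_a h (x := 66396) (by decide +kernel)) (V := [66396]) (by simp) (by decide +kernel)
    fun xc hxc β h0 h1 hA hB => ?_
  rw [List.mem_singleton] at hxc
  subst hxc
  exact step8 C (inj_succ inj) h0 h1 (L := CertD.lw) hA hB CertD.okd CertD.okl CertD.ok

theorem dead4 : Dead 4 := by
  intro U T z C u σ inj h
  refine dead_words C (inj_succ inj) (at6_rt h) (at6_b h (x := 72025) (by decide +kernel))
    (at6_a h (x := 69980) (by decide +kernel)) (V := [69980]) (by simp) (by decide +kernel)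
    fun xc hxc β h0 h1 hA hB => ?_
  rw [List.mem_singleton] at hxc
  subst hxc
  exact step8 C (inj_succ inj) h0 h1 (L := CertE.lw) hA hB CertE.okd CertE.okl CertE.ok

theorem dead6 : Dead 6 := by
  intro U T z C u σ inj h
  refine dead_words C (inj_succ inj) (at6_rt h) (at6_b h (x := 72473) (by decide +kernel))
    (at6_a h (x := 69932) (by decide +kernel)) (V := [69932, 69931]) (by simp) (by decide +kernel)
    fun xc hxc β h0 h1 hA hB => ?_
  have hxc : xc = 69932 ∨ xc = 69931 := by simpa using hxc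
  rcases hxc with rfl | rfl
  · exact step8 C (inj_succ inj) h0 h1 (L := CertG0.lw) hA hB CertG0.okd CertG0.okl CertG0.ok
  · exact step8 C (inj_succ inj) h0 h1 (L := CertG1.lw) hA hB CertG1.okd CertG1.okl CertG1.ok

theorem dead7 : Dead 7 := by
  intro U T z C u σ inj h
  refine dead_words C (inj_succ inj) (at6_rt h) (at6_b h (x := 72473) (by decide +kernel))
    (at6_a h (x := 69916) (by decide +kernel)) (V := [69916, 69931, 69932]) (by simp) (by decide +kernel)
    fun xc hxc β h0 h1 hA hB => ?_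
  have hxc : xc = 69916 ∨ xc = 69931 ∨ xc = 69932 := by simpa using hxc
  rcases hxc with rfl | rfl | rfl
  · exact step8 C (inj_succ inj) h0 h1 (L := CertH0.lw) hA hB CertH0.okd CertH0.okl CertH0.ok
  · exact step8 C (inj_succ inj) h0 h1 (L := CertH1.lw) hA hB CertH1.okd CertH1.okl CertH1.ok
  · exact step8 C (inj_succ inj) h0 h1 (L := CertH2.lw) hA hB CertH2.okd CertH2.okl CertH2.ok

theorem tab_mirror : ∀ k : Fin 6, 1 - (tab6 4).1 k = (tab6 5).2.2.1 (-k) ∧
    1 - (tab6 4).2.1 k = (tab6 5).2.2.2 (-k) ∧ 1 - (tab6 4).2.2.1 k = (tab6 5).1 (-k) ∧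
    1 - (tab6 4).2.2.2 k = (tab6 5).2.1 (-k) := by
  intro k
  fin_cases k <;> exact ⟨rfl, rfl, rfl, rfl⟩

theorem dead5 : Dead 5 := by
  intro U T z C u σ inj h
  refine dead4 _ _ _ C.mirror (-u) (fun k => σ (1 - k)) (fun a b hab => sub_right_injective (inj hab))
    ⟨fun k => ?_, fun k => ?_⟩
  · rw [C.sl_mirror, neg_neg]
    show (SR U T z u).1 (-k) = (σ (1 - (tab6 4).1 k), σ (1 - (tab6 4).2.1 k))
    rw [h.2, (tab_mirror k).1, (tab_mirror k).2.1]
  · rw [C.sr_mirror, neg_neg]
    show (SL U T z u).1 (-k) = (σ (1 - (tab6 4).2.2.1 k), σ (1 - (tab6 4).2.2.2 k))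
    rw [h.1, (tab_mirror k).2.2.1, (tab_mirror k).2.2.2]

theorem after_dead {n : Fin 16} (hn : ∀ k : Fin 6, (tab6 n).2.2.2 k = k + 4) (C : C6 U T z) (hct : Ctn U T z)
    {u : ℝ} {σ : Fin 6 → Fin 6} (inj : Function.Injective σ) (h : At6 U T z u σ n) : False := by
  refine no_after C hct (inj_succ inj) (at6_rt h) fun k => ?_
  have := congrArg Prod.snd (h.2 k)
  rw [hn k] at this
  show (LR U T z (u + k.val)).2 = σ (k + 3 + 1)
  have e : ∀ k : Fin 6, k + 3 + 1 = k + 4 := by decide
  rw [e]; exact this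

theorem before_dead {n : Fin 16} (hn : ∀ k : Fin 6, (tab6 n).2.1 k = k + 3) (C : C6 U T z) (hct : Ctn U T z)
    {u : ℝ} {σ : Fin 6 → Fin 6} (inj : Function.Injective σ) (h : At6 U T z u σ n) : False := by
  refine no_before C hct (u := u) inj (fun k => ?_) fun k => ?_
  · rw [h.1 k, (tab_in n k).1, hn k]
  · rw [h.2 k, (tab_in n k).2]

/-- **None of the sixteen six-fold events occurs.** -/
theorem no_at6 (C : C6 U T z) (hct : Ctn U T z) {u : ℝ} {σ : Fin 6 → Fin 6} (inj : Function.Injective σ)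
    (n : Fin 16) (h : At6 U T z u σ n) : False := by
  fin_cases n
  · exact after_dead (n := 0) (by decide +kernel) C hct inj h
  · exact after_dead (n := 1) (by decide +kernel) C hct inj h
  · exact dead2 U T z C u σ inj h
  · exact dead3 U T z C u σ inj h
  · exact dead4 U T z C u σ inj h
  · exact dead5 U T z C u σ inj h
  · exact dead6 U T z C u σ inj h
  · exact dead7 U T z C u σ inj h
  · exact after_dead (n := 8) (by decide +kernel) C hct inj h
  · exact before_dead (n := 9) (by decide +kernel) C hct inj h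
  · exact before_dead (n := 10) (by decide +kernel) C hct inj h
  · exact before_dead (n := 11) (by decide +kernel) C hct inj h
  · exact before_dead (n := 12) (by decide +kernel) C hct inj h
  · exact before_dead (n := 13) (by decide +kernel) C hct inj h
  · exact dead_flip C inj h
  · exact after_dead (n := 15) (by decide +kernel) C hct inj h

/-- **No six-coloured point**, from the one-class table. -/
theorem no6_of_rot6 (hR : Rot6) (C : C6 U T z) (hct : Ctn U T z) : False := by
  obtain ⟨u, σ, n, inj, h⟩ := hR U T z C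
  exact no_at6 C hct inj n h

end Vale.Agent.P032.H913
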