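import Vale.Agent.P032W.H913.Frozen
import Vale.Agent.P032W.H913.Certfrozen

/-!
# P032: words of outer letters after a rotation of the inner letters

* `frozen` : the inner letters do not change on `(u, u + 1)`,
* `run_words` : if the outer letters belong to a list `V` of words just after `u` and every event of `(u, u + 1)`
  preserves this, then they belong to `V` on `(u, u + 1)`.
-/

open Set Filter Topology Metric

noncomputable section

namespace Vale.Agent.P032.H913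

open Vale.Agent.P032.Six Vale.Agent.P032.H892 Vale.Agent.P032.S5.H767

variable {U : Fin 6 → Set ℂ} {T : ℂ → Set (Fin 6)} {z : ℂ}

theorem ltw_zero (u : ℝ) : ltw U T z 0 u = (LL U T z u).1 := rfl
theorem ltw_one (u : ℝ) : ltw U T z 1 u = (LL U T z u).2 := rfl
theorem ltw_two (u : ℝ) : ltw U T z 2 u = (LR U T z u).1 := rfl
theorem ltw_three (u : ℝ) : ltw U T z 3 u = (LR U T z u).2 := rfl

theorem cl_val (σ : Fin 6 → Fin 6) (k : Fin 6) : cl σ k.val = σ k := by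
  unfold cl
  congr 1
  apply Fin.ext
  exact Nat.mod_eq_of_lt k.isLt

/-- from `Fin 6` to numbers -/
theorem fin_of {p : ℕ → Prop} (h : ∀ k : Fin 6, p k.val) : ∀ k : ℕ, k < 6 → p k := fun k hk => h ⟨k, hk⟩

/-- `0 1 2 3 4 5` -/
def wI : ℕ := 181896
/-- `5 0 1 2 3 4` -/
def wP : ℕ := 144453
/-- `1 2 3 4 5 0` -/
def wN : ℕ := 22737
/-- unknown -/
def wU : ℕ := 224694

theorem wI_eq : ∀ k : Fin 6, wc wI k.val = k.val := by decide +kernel
theorem wP_eq : ∀ k : Fin 6, wc wP k.val = (k - 1).val := by decide +kernel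
theorem wN_eq : ∀ k : Fin 6, wc wN k.val = (k + 1).val := by decide +kernel
theorem wU_eq : ∀ k : Fin 6, wc wU k.val = 6 := by decide +kernel

/-- four letter classes known as words -/
theorem four {g : ℕ → ℕ → Fin 6} {σ : Fin 6 → Fin 6} {x0 x1 x2 x3 : ℕ}
    (h0 : ∀ k : Fin 6, wc x0 k.val < 6 → g 0 k.val = cl σ (wc x0 k.val))
    (h1 : ∀ k : Fin 6, wc x1 k.val < 6 → g 1 k.val = cl σ (wc x1 k.val))
    (h2 : ∀ k : Fin 6, wc x2 k.val < 6 → g 2 k.val = cl σ (wc x2 k.val))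
    (h3 : ∀ k : Fin 6, wc x3 k.val < 6 → g 3 k.val = cl σ (wc x3 k.val)) :
    ∀ w < 4, ∀ k : ℕ, k < 6 → wc ([x0, x1, x2, x3].getD w 0) k < 6 →
      g w k = cl σ (wc ([x0, x1, x2, x3].getD w 0) k) := by
  intro w hw k hk
  interval_cases w
  · exact h0 ⟨k, hk⟩
  · exact h1 ⟨k, hk⟩
  · exact h2 ⟨k, hk⟩
  · exact h3 ⟨k, hk⟩

theorem unk {σ : Fin 6 → Fin 6} (g : Fin 6 → Fin 6) : ∀ k : Fin 6, wc wU k.val < 6 → g k = cl σ (wc wU k.val) := by
  intro k h
  rw [wU_eq] at h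
  omega

theorem getD_app (l m : List ℕ) (w : ℕ) (hl : l.length = 4) : (l ++ m).getD (4 + w) 0 = m.getD w 0 := by
  rw [List.getD_append_right _ _ _ _ (by omega), hl]
  congr 1
  omega

theorem getD_app' (l m : List ℕ) (w : ℕ) (hl : w < l.length) : (l ++ m).getD w 0 = l.getD w 0 :=
  List.getD_append _ _ _ _ hl

section
variable (C : C6 U T z)
include C

/-- an event after a rotation at which inner letters change is a rotation -/
theorem rot_step (u β : ℝ) (σ : Fin 6 → Fin 6) (hσ : Function.Injective σ) (h0 : 0 < β) (h1 : β < 1)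
    (hR : Rt U T z u σ) (hL : ∀ k : Fin 6, (LL U T z (u + β + k.val)).1 = σ k) :
    (∀ k : Fin 6, (LR U T z (u + β + k.val)).1 = σ k) ∨ (∀ k : Fin 6, (LR U T z (u + β + k.val)).1 = σ (k + 1)) := by
  have hlw : Certfrozen.lw = [wP, wU, wI, wU] ++ [wI, wU, wU, wU] := rfl
  have hAA : ∀ w < 4, ∀ k : ℕ, k < 6 → wc (Certfrozen.lw.getD w 0) k < 6 →
      ltw U T z w (u + k) = cl σ (wc (Certfrozen.lw.getD w 0) k) := by
    intro w hw k hk
    rw [hlw, getD_app' _ _ _ (by simpa using hw)]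
    exact four (g := fun w k => ltw U T z w (u + k)) (fun k _ => by rw [wP_eq, cl_val]; exact hR.1 k)
      (unk _) (fun k _ => by rw [wI_eq, cl_val]; exact hR.2 k) (unk _) w hw k hk
  have hBB : ∀ w < 4, ∀ k : ℕ, k < 6 → wc (Certfrozen.lw.getD (4 + w) 0) k < 6 →
      ltw U T z w (u + β + k) = cl σ (wc (Certfrozen.lw.getD (4 + w) 0) k) := by
    intro w hw k hk
    rw [hlw, getD_app _ _ _ rfl]
    exact four (g := fun w k => ltw U T z w (u + β + k)) (fun k _ => by rw [wI_eq, cl_val]; exact hL k)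
      (unk _) (unk _) (unk _) w hw k hk
  obtain ⟨x, hx, h⟩ := step8 C hσ h0 h1 (L := Certfrozen.lw) hAA hBB Certfrozen.okd Certfrozen.okl Certfrozen.ok
  have hx : x = (2, wI) ∨ x = (2, wN) := by
    have : Certfrozen.nl = [(2, wI), (2, wN)] := rfl
    rw [this] at hx
    simpa using hx
  rcases hx with rfl | rfl
  · left
    intro k
    have h5 : ltw U T z 2 (u + β + k.val) = cl σ (wc wI k.val) := h k.val k.isLt
    rw [wI_eq, cl_val, ltw_two] at h5
    exact h5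
  · right
    intro k
    have h5 : ltw U T z 2 (u + β + k.val) = cl σ (wc wN k.val) := h k.val k.isLt
    rw [wN_eq, cl_val, ltw_two] at h5
    exact h5

/-- **The inner letters are frozen after a rotation.** -/
theorem frozen {u : ℝ} {σ : Fin 6 → Fin 6} (hσ : Function.Injective σ) (hR : Rt U T z u σ) :
    ∀ v ∈ Ioo u (u + 1), ¬ ChI U T z v := frozen_of C (rot_step C) hσ hR

theorem frozen_L {u : ℝ} {σ : Fin 6 → Fin 6} (hσ : Function.Injective σ) (hR : Rt U T z u σ) {v : ℝ}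
    (hv : v ∈ Ioc u (u + 1)) (k : Fin 6) : (LL U T z (v + k.val)).1 = σ k := by
  rw [inner_const C (frozen C hσ hR) hv k]; exact hR.2 k

theorem frozen_R {u : ℝ} {σ : Fin 6 → Fin 6} (hσ : Function.Injective σ) (hR : Rt U T z u σ) {v : ℝ}
    (hv : v ∈ Ioo u (u + 1)) (k : Fin 6) : (LR U T z (v + k.val)).1 = σ k := by
  have h := frozen C hσ hR v hv
  unfold ChI at h
  push Not at h
  rw [← h k]
  exact frozen_L C hσ hR ⟨hv.1, hv.2.le⟩ k

/-- **Closures.** -/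
theorem run_words {u : ℝ} {σ : Fin 6 → Fin 6} (hσ : Function.Injective σ) (hR : Rt U T z u σ) {xb xa : ℕ}
    (hb : ∀ k : Fin 6, wc xb k.val < 6 → (LL U T z (u + k.val)).2 = cl σ (wc xb k.val))
    (ha : ∀ k : Fin 6, (LR U T z (u + k.val)).2 = cl σ (wc xa k.val)) {V : List ℕ} (haV : xa ∈ V)
    (hst : ∀ xc ∈ V, ∀ β : ℝ, 0 < β → β < 1 →
      (∀ w < 4, ∀ k : ℕ, k < 6 → wc (([wP, xb, wI, xa] ++ [wI, xc, wI, wU]).getD w 0) k < 6 →
        ltw U T z w (u + k) = cl σ (wc (([wP, xb, wI, xa] ++ [wI, xc, wI, wU]).getD w 0) k)) →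
      (∀ w < 4, ∀ k : ℕ, k < 6 → wc (([wP, xb, wI, xa] ++ [wI, xc, wI, wU]).getD (4 + w) 0) k < 6 →
        ltw U T z w (u + β + k) = cl σ (wc (([wP, xb, wI, xa] ++ [wI, xc, wI, wU]).getD (4 + w) 0) k)) →
      ∃ x ∈ V.map (fun x => (3, x)), ∀ k : ℕ, k < 6 → ltw U T z x.1 (u + β + k) = cl σ (wc x.2 k)) :
    ∀ v ∈ Ioc u (u + 1), ∃ x ∈ V, ∀ k : Fin 6, (LL U T z (v + k.val)).2 = cl σ (wc x k.val) := by
  intro v hv
  refine C.run6 (I := fun s => ∃ x ∈ V, ∀ k : Fin 6, (s.1 k).2 = cl σ (wc x k.val)) hv.1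
    ⟨xa, haV, fun k => ha k⟩ fun y hy hs => ?_
  obtain ⟨xc, hxc, hc⟩ := hs
  have hy2 : y ∈ Ioo u (u + 1) := ⟨hy.1, lt_of_lt_of_le hy.2 hv.2⟩
  have e : u + (y - u) = y := by ring
  have hAA : ∀ w < 4, ∀ k : ℕ, k < 6 → wc (([wP, xb, wI, xa] ++ [wI, xc, wI, wU]).getD w 0) k < 6 →
      ltw U T z w (u + k) = cl σ (wc (([wP, xb, wI, xa] ++ [wI, xc, wI, wU]).getD w 0) k) := by
    intro w hw k hk
    rw [getD_app' _ _ _ (by simpa using hw)]
    exact four (g := fun w k => ltw U T z w (u + k)) (fun k _ => by rw [wP_eq, cl_val]; exact hR.1 k)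
      hb (fun k _ => by rw [wI_eq, cl_val]; exact hR.2 k) (fun k _ => ha k) w hw k hk
  have hBB : ∀ w < 4, ∀ k : ℕ, k < 6 → wc (([wP, xb, wI, xa] ++ [wI, xc, wI, wU]).getD (4 + w) 0) k < 6 →
      ltw U T z w (u + (y - u) + k) = cl σ (wc (([wP, xb, wI, xa] ++ [wI, xc, wI, wU]).getD (4 + w) 0) k) := by
    intro w hw k hk
    rw [getD_app _ _ _ rfl, e]
    exact four (g := fun w k => ltw U T z w (y + k))
      (fun k _ => by rw [wI_eq, cl_val]; exact frozen_L C hσ hR ⟨hy2.1, hy2.2.le⟩ k)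
      (fun k _ => hc k) (fun k _ => by rw [wI_eq, cl_val]; exact frozen_R C hσ hR hy2 k) (unk _) w hw k hk
  obtain ⟨x, hx, h⟩ := hst xc hxc (y - u) (by linarith [hy.1]) (by linarith [hy2.2]) hAA hBB
  obtain ⟨x', hx', rfl⟩ := List.mem_map.1 hx
  refine ⟨x', hx', fun k => ?_⟩
  have h5 : ltw U T z 3 (u + (y - u) + k.val) = cl σ (wc x' k.val) := h k.val k.isLt
  rw [e, ltw_three] at h5
  exact h5

/-- **Closures, contradiction.** -/
theorem dead_words {u : ℝ} {σ : Fin 6 → Fin 6} (hσ : Function.Injective σ) (hR : Rt U T z u σ) {xb xa : ℕ}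
    (hb : ∀ k : Fin 6, (LL U T z (u + k.val)).2 = cl σ (wc xb k.val))
    (ha : ∀ k : Fin 6, (LR U T z (u + k.val)).2 = cl σ (wc xa k.val)) {V : List ℕ} (haV : xa ∈ V)
    (hend : ∀ x ∈ V, ∃ k : Fin 6, wc x k.val % 6 ≠ wc xb (k + 1).val % 6)
    (hst : ∀ xc ∈ V, ∀ β : ℝ, 0 < β → β < 1 →
      (∀ w < 4, ∀ k : ℕ, k < 6 → wc (([wP, xb, wI, xa] ++ [wI, xc, wI, wU]).getD w 0) k < 6 →
        ltw U T z w (u + k) = cl σ (wc (([wP, xb, wI, xa] ++ [wI, xc, wI, wU]).getD w 0) k)) →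
      (∀ w < 4, ∀ k : ℕ, k < 6 → wc (([wP, xb, wI, xa] ++ [wI, xc, wI, wU]).getD (4 + w) 0) k < 6 →
        ltw U T z w (u + β + k) = cl σ (wc (([wP, xb, wI, xa] ++ [wI, xc, wI, wU]).getD (4 + w) 0) k)) →
      ∃ x ∈ V.map (fun x => (3, x)), ∀ k : ℕ, k < 6 → ltw U T z x.1 (u + β + k) = cl σ (wc x.2 k)) : False := by
  obtain ⟨x, hx, h⟩ := run_words C hσ hR (fun k _ => hb k) ha haV hst (u + 1) ⟨by linarith, le_rfl⟩
  obtain ⟨k, hk⟩ := hend x hx
  have h1 := h k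
  rw [ll_turn C, hb] at h1
  refine hk ?_
  have := congrArg Fin.val (hσ h1)
  exact this.symm

end

end Vale.Agent.P032.H913
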