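import Vale.Agent.P032W.H913.Two
import Vale.Agent.P032W.H892.SixFst

/-!
# P032: after a rotation of the six inner letters

`Rot6 u σ` : just before the time `u` the inner letter at the position `k` is `σ (k - 1)`, just after it is `σ k`.

* `frozen_of` : if a rotation is followed by an event at which the inner letters change, then this event is a rotation
  again (hypothesis `hF`, a certificate); then the inner letters do not change on `(u, u + 1)`.
-/

open Set Filter Topology Metric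

noncomputable section

namespace Vale.Agent.P032.H913

open Vale.Agent.P032.Six Vale.Agent.P032.H892 Vale.Agent.P032.S5.H767

variable {U : Fin 6 → Set ℂ} {T : ℂ → Set (Fin 6)} {z : ℂ}

/-- rotation of the inner letters -/
def Rt (U : Fin 6 → Set ℂ) (T : ℂ → Set (Fin 6)) (z : ℂ) (u : ℝ) (σ : Fin 6 → Fin 6) : Prop :=
  (∀ k : Fin 6, (LL U T z (u + k.val)).1 = σ (k - 1)) ∧ ∀ k : Fin 6, (LR U T z (u + k.val)).1 = σ k

/-- some inner letter changes -/
def ChI (U : Fin 6 → Set ℂ) (T : ℂ → Set (Fin 6)) (z : ℂ) (u : ℝ) : Prop :=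
  ∃ k : Fin 6, (LL U T z (u + k.val)).1 ≠ (LR U T z (u + k.val)).1

/-- first times -/
theorem first_of {P : ℝ → Prop} (hP : ∀ u, ∀ᶠ v in 𝓝[>] u, ¬ P v) {a b : ℝ} (hab : a < b) (hb : P b) :
    ∃ u, a < u ∧ u ≤ b ∧ P u ∧ ∀ v ∈ Ioo a u, ¬ P v := by
  set S := {u | a < u ∧ P u} with hS
  have hbd : BddBelow S := ⟨a, fun u hu => hu.1.le⟩
  have hne : S.Nonempty := ⟨b, hab, hb⟩
  set t := sInf S with ht
  have h1 : a ≤ t := le_csInf hne fun u hu => hu.1.le
  have htb : t ≤ b := csInf_le hbd ⟨hab, hb⟩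
  have htS : t ∈ S := by
    by_contra hcon
    obtain ⟨w, hw, hs⟩ := (mem_nhdsGT_iff_exists_Ioo_subset (a := t)).1 (hP t)
    have hw : t < w := hw
    obtain ⟨u, hu, huw⟩ := exists_lt_of_csInf_lt hne (show sInf S < w from hw)
    have htu : t ≤ u := csInf_le hbd hu
    rcases htu.lt_or_eq with h2 | h2
    · exact hs ⟨h2, huw⟩ hu.2
    · exact hcon (h2 ▸ hu)
  exact ⟨t, htS.1, htb, htS.2, fun v hv hc => absurd (csInf_le hbd (show v ∈ S from ⟨hv.1, hc⟩))
    (not_le.2 hv.2)⟩

section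
variable (C : C6 U T z)
include C

theorem no_chI_right (u : ℝ) : ∀ᶠ v in 𝓝[>] u, ¬ ChI U T z v := by
  filter_upwards [C.ev_right u] with v hv hc
  obtain ⟨k, hk⟩ := hc
  refine hk ?_
  have h1 : (SL U T z v).1 k = (SR U T z v).1 k := by rw [hv.1, hv.2]
  exact congrArg Prod.fst h1

/-- inner letters are constant without changes -/
theorem inner_const {a b : ℝ} (h : ∀ v ∈ Ioo a b, ¬ ChI U T z v) {u : ℝ} (hu : u ∈ Ioc a b) (k : Fin 6) :
    (LL U T z (u + k.val)).1 = (LR U T z (a + k.val)).1 := by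
  have key := C.run6 (I := fun s => ∀ k, (s.1 k).1 = (LR U T z (a + k.val)).1) hu.1 (fun k => rfl)
    (fun v hv hs k => ?_)
  · exact key k
  · have h1 := h v ⟨hv.1, lt_of_lt_of_le hv.2 hu.2⟩
    unfold ChI at h1
    push Not at h1
    exact (h1 k).symm.trans (hs k)

/-- the letters before the time `u + 1` -/
theorem ll_turn (u : ℝ) (k : Fin 6) : LL U T z (u + 1 + k.val) = LL U T z (u + (k + 1 : Fin 6).val) := by
  have h := congrFun (congrArg Prod.fst (C.sl_succ u)) k
  exact h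

theorem not_three {u w : ℝ} {c : Fin 6} (h0 : (LR U T z u).1 = c) (h1 : (LL U T z (u + 1)).1 = c)
    (hw0 : 0 < w) (hw1 : w < 1) (h3 : (LR U T z (u + w + 3)).1 = c) : False := by
  obtain ⟨θ, hθ⟩ : ∃ θ, θ ∈ Dr T z c := ⟨_, (C.hull c).left⟩
  have e0 := C.dir_R_in (u := u) (θ := θ) (by rw [h0]; exact hθ)
  have e1 := C.dir_L_in (u := u + 1) (θ := θ) (by rw [h1]; exact hθ)
  have e3 := C.dir_R_in (u := u + w + 3) (θ := θ) (by rw [h3]; exact hθ)
  have hpi := Real.pi_pos
  set X := (θ - u) * (Real.pi / 3) with hX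
  set W := w * (Real.pi / 3) with hW
  have a1 : (θ - (u + 1)) * (Real.pi / 3) = X - Real.pi / 3 := by rw [hX]; ring
  have a3 : (θ - (u + w + 3)) * (Real.pi / 3) = X - W - Real.pi := by rw [hX, hW]; ring
  rw [a1] at e1
  rw [a3, Real.cos_sub_pi] at e3
  have hW0 : 0 < W := by rw [hW]; positivity
  have hW1 : W < Real.pi / 3 := by rw [hW]; nlinarith
  have s1 : 0 < Real.sin W := Real.sin_pos_of_pos_of_lt_pi hW0 (by linarith)
  have s2 : 0 < Real.sin (Real.pi / 3 - W) := Real.sin_pos_of_pos_of_lt_pi (by linarith) (by linarith)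
  have s3 : 0 < Real.sin (Real.pi / 3) := Real.sin_pos_of_pos_of_lt_pi (by linarith) (by linarith)
  have key : Real.sin (Real.pi / 3) * Real.cos (X - W) =
      Real.sin (Real.pi / 3 - W) * Real.cos X + Real.sin W * Real.cos (X - Real.pi / 3) := by
    rw [Real.cos_sub, Real.sin_sub, Real.cos_sub]; ring
  have k1 := mul_nonneg s2.le e0
  have k2 := mul_nonneg s1.le e1
  have k3 : Real.sin (Real.pi / 3) * Real.cos (X - W) ≤ 0 := by nlinarith
  have z0 : Real.cos X = 0 := by
    have : Real.sin (Real.pi / 3 - W) * Real.cos X = 0 := by linarith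
    rcases mul_eq_zero.1 this with h | h
    · exact absurd h s2.ne'
    · exact h
  have z1 : Real.cos (X - Real.pi / 3) = 0 := by
    have : Real.sin W * Real.cos (X - Real.pi / 3) = 0 := by linarith
    rcases mul_eq_zero.1 this with h | h
    · exact absurd h s1.ne'
    · exact h
  rw [Real.cos_sub, z0, zero_mul, zero_add] at z1
  rcases mul_eq_zero.1 z1 with h | h
  · have := Real.sin_sq_add_cos_sq X
    rw [h, z0] at this
    norm_num at this
  · exact s3.ne' h

/-- one more rotation -/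
theorem next_rot (hF : ∀ (u β : ℝ) (σ : Fin 6 → Fin 6), Function.Injective σ → 0 < β → β < 1 → Rt U T z u σ →
      (∀ k : Fin 6, (LL U T z (u + β + k.val)).1 = σ k) →
      (∀ k : Fin 6, (LR U T z (u + β + k.val)).1 = σ k) ∨ (∀ k : Fin 6, (LR U T z (u + β + k.val)).1 = σ (k + 1)))
    {u b : ℝ} {σ : Fin 6 → Fin 6} (hσ : Function.Injective σ) (hR : Rt U T z u σ) (hub : u < b) (hb : b ≤ u + 1)
    (hc : ∃ v ∈ Ioo u b, ChI U T z v) : ∃ v ∈ Ioo u b, Rt U T z v (fun k => σ (k + 1)) := by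
  obtain ⟨v0, hv0, hc0⟩ := hc
  obtain ⟨v, hv1, hv2, hv3, hv4⟩ := first_of (no_chI_right C) hv0.1 hc0
  have hvb : v < b := lt_of_le_of_lt hv2 hv0.2
  have hL : ∀ k : Fin 6, (LL U T z (v + k.val)).1 = σ k := fun k => by
    rw [inner_const C hv4 ⟨hv1, le_rfl⟩ k]; exact hR.2 k
  have e : u + (v - u) = v := by ring
  rcases hF u (v - u) σ hσ (by linarith) (by linarith) hR (by rw [e]; exact hL) with h | h
  · exfalso
    rw [e] at h
    obtain ⟨k, hk⟩ := hv3
    exact hk ((hL k).trans (h k).symm)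
  · rw [e] at h
    refine ⟨v, ⟨hv1, hvb⟩, fun k => ?_, h⟩
    rw [hL k]
    show σ k = σ (k - 1 + 1)
    rw [sub_add_cancel]

/-- **The inner letters are frozen after a rotation.** -/
theorem frozen_of (hF : ∀ (u β : ℝ) (σ : Fin 6 → Fin 6), Function.Injective σ → 0 < β → β < 1 → Rt U T z u σ →
      (∀ k : Fin 6, (LL U T z (u + β + k.val)).1 = σ k) →
      (∀ k : Fin 6, (LR U T z (u + β + k.val)).1 = σ k) ∨ (∀ k : Fin 6, (LR U T z (u + β + k.val)).1 = σ (k + 1)))
    {u : ℝ} {σ : Fin 6 → Fin 6} (hσ : Function.Injective σ) (hR : Rt U T z u σ) :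
    ∀ v ∈ Ioo u (u + 1), ¬ ChI U T z v := by
  by_contra hcon
  push Not at hcon
  have hend : ∀ k : Fin 6, (LL U T z (u + 1 + k.val)).1 = σ k := fun k => by
    rw [ll_turn C, hR.1, add_sub_cancel_right]
  have hs : ∀ j : Fin 6, Function.Injective (fun k => σ (k + j)) := fun j a b hab => add_right_cancel (hσ hab)
  -- while the letters are turned, there is one more change
  have more : ∀ (j : Fin 6), j ≠ 0 → ∀ v, u < v → v < u + 1 → Rt U T z v (fun k => σ (k + j)) →
      ∃ v' ∈ Ioo v (u + 1), ChI U T z v' := by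
    intro j hj v hv1 hv2 hRv
    by_contra hno
    push Not at hno
    have h1 := inner_const C hno (u := u + 1) ⟨hv2, le_rfl⟩ 0
    rw [hend 0, hRv.2 0] at h1
    have h2 := hσ h1
    rw [zero_add] at h2
    exact hj h2.symm
  obtain ⟨v1, hv1, hR1⟩ := next_rot C hF hσ hR (by linarith) le_rfl hcon
  obtain ⟨v2, hv2, hR2⟩ := next_rot C hF (hs 1) hR1 hv1.2 (by linarith [hv1.1]) (more 1 (by decide) v1 hv1.1 hv1.2 hR1)
  have e2 : (fun k : Fin 6 => (fun k => σ (k + 1)) (k + 1)) = fun k => σ (k + 2) := by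
    funext k
    show σ (k + 1 + 1) = σ (k + 2)
    rw [add_assoc]; rfl
  rw [e2] at hR2
  obtain ⟨v3, hv3, hR3⟩ := next_rot C hF (hs 2) hR2 hv2.2 (by linarith [hv1.1, hv2.1])
    (more 2 (by decide) v2 (hv1.1.trans hv2.1) hv2.2 hR2)
  have e3 : (fun k : Fin 6 => (fun k => σ (k + 2)) (k + 1)) = fun k => σ (k + 3) := by
    funext k
    show σ (k + 1 + 2) = σ (k + 3)
    rw [add_assoc]; rfl
  rw [e3] at hR3
  refine not_three C (u := u) (w := v3 - u) (c := σ 0) ?_ ?_ (by linarith [hv1.1, hv2.1, hv3.1])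
    (by linarith [hv3.2]) ?_
  · have := hR.2 0
    simpa using this
  · have := hR.1 1
    simpa using this
  · have h3 := hR3.2 3
    have e4 : u + (v3 - u) + 3 = v3 + ((3 : Fin 6).val : ℝ) := by
      have : ((3 : Fin 6).val : ℝ) = 3 := by norm_num
      rw [this]; ring
    rw [e4, h3]
    rfl

end

end Vale.Agent.P032.H913
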