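import Vale.Agent.P032W.H357.Ray
import Vale.Agent.P032W.H892.SixEv

/-!
# P032: ticks and exact rays of several direction classes

`Tick K a` : an increasing sequence of angles (units of 60 degrees) with `a (t + K) = a t + 1`, i.e. `K` direction
classes.  `dir x` : the unit vector at the angle `x`.  `ry a ρ` : exact rays; `ρ = 2 t` is the direction of the
tangent of the unit circle at `dir (a t)`, `ρ = 2 t + 1` is between the tangents at the ticks `t` and `t + 1`.

* `Tick.ip_pos`, `ip_zero`, `ip_neg` : the sign of `ip (ry a ρ) (dir (a t))` from `(2 t + 12 K - ρ) % (12 K)`.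
-/

open Set Filter Topology Metric

noncomputable section

namespace Vale.Agent.P032.H913

open Vale.Agent.P032.Six Vale.Agent.P032.H892 Vale.Agent.P032.S5.H767

/-- unit vector at the angle `x` in units of 60 degrees -/
def dir (x : ℝ) : ℂ := cis (x * (Real.pi / 3))

theorem norm_dir (x : ℝ) : ‖dir x‖ = 1 := norm_cis _

theorem dir_ne (x : ℝ) : dir x ≠ 0 := by
  intro h
  have := norm_dir x
  rw [h, norm_zero] at this
  exact zero_ne_one this

theorem pt_eq (z : ℂ) (u : ℝ) : pt z u = z + dir u := rfl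

theorem ip_dir (x y : ℝ) : ip (dir x) (dir y) = Real.cos ((x - y) * (Real.pi / 3)) := by
  unfold ip dir
  simp only [cis_re, cis_im]
  rw [sub_mul, Real.cos_sub]

theorem dir_add_three (x : ℝ) : dir (x + 3) = -dir x := by
  unfold dir
  have : (x + 3) * (Real.pi / 3) = x * (Real.pi / 3) + Real.pi := by ring
  rw [this]
  apply Complex.ext
  · simp only [cis_re, Complex.neg_re, Real.cos_add_pi]
  · simp only [cis_im, Complex.neg_im, Real.sin_add_pi]

theorem dir_add_six (x : ℝ) : dir (x + 6) = dir x := by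
  have : x + 6 = (x + 3) + 3 := by ring
  rw [this, dir_add_three, dir_add_three, neg_neg]

theorem dir_per (x : ℝ) (n : ℕ) : dir (x + 6 * n) = dir x := by
  induction n with
  | zero => simp
  | succ n ih =>
    have : x + 6 * ((n + 1 : ℕ) : ℝ) = x + 6 * n + 6 := by push_cast; ring
    rw [this, dir_add_six, ih]

theorem dir_quarter (x : ℝ) : dir (x + 3 / 2) = Complex.I * dir x := by
  unfold dir
  have : (x + 3 / 2) * (Real.pi / 3) = x * (Real.pi / 3) + Real.pi / 2 := by ring
  rw [this]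
  apply Complex.ext
  · simp only [cis_re, Complex.mul_re, Complex.I_re, Complex.I_im, cis_im, Real.cos_add_pi_div_two]; ring
  · simp only [cis_im, Complex.mul_im, Complex.I_re, Complex.I_im, cis_re, Real.sin_add_pi_div_two]; ring

/-- angles of ticks -/
structure Tick (K : ℕ) (a : ℕ → ℝ) : Prop where
  pos : 0 < K
  mono : StrictMono a
  per : ∀ t, a (t + K) = a t + 1

/-- angles of half ticks -/
def mid (a : ℕ → ℝ) (m : ℕ) : ℝ := (a (m / 2) + a ((m + 1) / 2)) / 2

/-- exact rays -/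
def ry (a : ℕ → ℝ) (ρ : ℕ) : ℂ := dir (mid a ρ + 3 / 2)

theorem mid_even (a : ℕ → ℝ) (t : ℕ) : mid a (2 * t) = a t := by
  unfold mid
  have h1 : 2 * t / 2 = t := by omega
  have h2 : (2 * t + 1) / 2 = t := by omega
  rw [h1, h2]; ring

namespace Tick

variable {K : ℕ} {a : ℕ → ℝ} (A : Tick K a)
include A

theorem mid_mono : StrictMono (mid a) := by
  refine strictMono_nat_of_lt_succ fun m => ?_
  unfold mid
  rcases Nat.even_or_odd' m with ⟨s, h | h⟩
  · have h1 : m / 2 = s := by omega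
    have h2 : (m + 1) / 2 = s := by omega
    have h3 : (m + 1 + 1) / 2 = s + 1 := by omega
    rw [h1, h2, h3]
    have := A.mono (show s < s + 1 by omega)
    linarith
  · have h1 : m / 2 = s := by omega
    have h2 : (m + 1) / 2 = s + 1 := by omega
    have h3 : (m + 1 + 1) / 2 = s + 1 := by omega
    rw [h1, h2, h3]
    have := A.mono (show s < s + 1 by omega)
    linarith

theorem per_mul (t q : ℕ) : a (t + q * K) = a t + q := by
  induction q with
  | zero => simp
  | succ q ih =>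
    have : t + (q + 1) * K = (t + q * K) + K := by ring
    rw [this, A.per, ih]; push_cast; ring

theorem mid_per (m q : ℕ) : mid a (m + q * (2 * K)) = mid a m + q := by
  unfold mid
  have h1 : (m + q * (2 * K)) / 2 = m / 2 + q * K := by
    have : m + q * (2 * K) = m + (q * K) * 2 := by ring
    rw [this, Nat.add_mul_div_right _ _ (by norm_num)]
  have h2 : (m + q * (2 * K) + 1) / 2 = (m + 1) / 2 + q * K := by
    have : m + q * (2 * K) + 1 = (m + 1) + (q * K) * 2 := by ring
    rw [this, Nat.add_mul_div_right _ _ (by norm_num)]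
  rw [h1, h2, A.per_mul, A.per_mul]; ring

/-- the angle between a ray and a tick -/
theorem diff {ρ t : ℕ} (hρ : ρ ≤ 12 * K) : ∃ q : ℤ,
    a t - mid a ρ = mid a (ρ + (2 * t + 12 * K - ρ) % (12 * K)) - mid a ρ + 6 * q := by
  set n := 2 * t + 12 * K - ρ with hn
  have h1 := Nat.mod_add_div n (12 * K)
  have h2 : 2 * t + 6 * (2 * K) = (ρ + n % (12 * K)) + (6 * (n / (12 * K))) * (2 * K) := by
    have e : 6 * (n / (12 * K)) * (2 * K) = 12 * K * (n / (12 * K)) := by ring
    rw [e]; omega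
  have h3 := A.mid_per (2 * t) 6
  have h4 := A.mid_per (ρ + n % (12 * K)) (6 * (n / (12 * K)))
  rw [h2, h4, mid_even] at h3
  generalize n / (12 * K) = m at h3
  refine ⟨(m : ℤ) - 1, ?_⟩
  push_cast at h3 ⊢
  linarith

omit A in
theorem ip_eq (ρ t : ℕ) : ip (ry a ρ) (dir (a t)) = Real.sin ((a t - mid a ρ) * (Real.pi / 3)) := by
  unfold ry
  rw [ip_dir]
  have : (mid a ρ + 3 / 2 - a t) * (Real.pi / 3) = Real.pi / 2 - (a t - mid a ρ) * (Real.pi / 3) := by ring
  rw [this, Real.cos_pi_div_two_sub]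

theorem ip_eq' {ρ t : ℕ} (hρ : ρ ≤ 12 * K) : ip (ry a ρ) (dir (a t)) =
    Real.sin ((mid a (ρ + (2 * t + 12 * K - ρ) % (12 * K)) - mid a ρ) * (Real.pi / 3)) := by
  obtain ⟨q, hq⟩ := A.diff (t := t) hρ
  rw [ip_eq, hq]
  have : (mid a (ρ + (2 * t + 12 * K - ρ) % (12 * K)) - mid a ρ + 6 * q) * (Real.pi / 3) =
      (mid a (ρ + (2 * t + 12 * K - ρ) % (12 * K)) - mid a ρ) * (Real.pi / 3) + q * (2 * Real.pi) := by ring
  rw [this, Real.sin_add_int_mul_two_pi]

theorem mid_six (ρ : ℕ) : mid a (ρ + 6 * K) = mid a ρ + 3 := by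
  have := A.mid_per ρ 3
  have e : 3 * (2 * K) = 6 * K := by ring
  rw [e] at this
  rw [this]; norm_num

theorem mid_twelve (ρ : ℕ) : mid a (ρ + 12 * K) = mid a ρ + 6 := by
  have := A.mid_per ρ 6
  have e : 6 * (2 * K) = 12 * K := by ring
  rw [e] at this
  rw [this]; norm_num

/-- sign `0` -/
theorem ip_zero {ρ t : ℕ} (hρ : ρ ≤ 12 * K) (h : (2 * t + 12 * K - ρ) % (12 * K) = 0 ∨
    (2 * t + 12 * K - ρ) % (12 * K) = 6 * K) : ip (ry a ρ) (dir (a t)) = 0 := by
  rw [A.ip_eq' hρ]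
  rcases h with h | h
  · rw [h, add_zero, sub_self, zero_mul, Real.sin_zero]
  · rw [h, A.mid_six]
    have : (mid a ρ + 3 - mid a ρ) * (Real.pi / 3) = Real.pi := by ring
    rw [this, Real.sin_pi]

/-- sign `+` -/
theorem ip_pos {ρ t : ℕ} (hρ : ρ ≤ 12 * K) (h0 : 0 < (2 * t + 12 * K - ρ) % (12 * K))
    (h1 : (2 * t + 12 * K - ρ) % (12 * K) < 6 * K) : 0 < ip (ry a ρ) (dir (a t)) := by
  rw [A.ip_eq' hρ]
  set d := (2 * t + 12 * K - ρ) % (12 * K) with hd
  have h2 := A.mid_mono (show ρ < ρ + d by omega)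
  have h3 := A.mid_mono (show ρ + d < ρ + 6 * K by omega)
  rw [A.mid_six] at h3
  have hpi := Real.pi_pos
  refine Real.sin_pos_of_pos_of_lt_pi (mul_pos (by linarith) (by positivity)) ?_
  nlinarith

/-- sign `-` -/
theorem ip_neg {ρ t : ℕ} (hρ : ρ ≤ 12 * K) (h : 6 * K < (2 * t + 12 * K - ρ) % (12 * K)) :
    ip (ry a ρ) (dir (a t)) < 0 := by
  rw [A.ip_eq' hρ]
  have hlt : (2 * t + 12 * K - ρ) % (12 * K) < 12 * K := Nat.mod_lt _ (by have := A.pos; omega)
  set d := (2 * t + 12 * K - ρ) % (12 * K) with hd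
  have h2 := A.mid_mono (show ρ + 6 * K < ρ + d by omega)
  have h3 := A.mid_mono (show ρ + d < ρ + 12 * K by omega)
  rw [A.mid_six] at h2
  rw [A.mid_twelve] at h3
  have hpi := Real.pi_pos
  have h4 : 0 < Real.sin ((mid a (ρ + d) - mid a ρ) * (Real.pi / 3) - Real.pi) := by
    refine Real.sin_pos_of_pos_of_lt_pi ?_ ?_
    · nlinarith
    · nlinarith
  rw [Real.sin_sub_pi] at h4
  linarith

theorem ip_nonneg {ρ t : ℕ} (hρ : ρ ≤ 12 * K) (h : (2 * t + 12 * K - ρ) % (12 * K) ≤ 6 * K) :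
    0 ≤ ip (ry a ρ) (dir (a t)) := by
  rcases Nat.eq_zero_or_pos ((2 * t + 12 * K - ρ) % (12 * K)) with h0 | h0
  · exact (A.ip_zero hρ (Or.inl h0)).ge
  · rcases h.lt_or_eq with h1 | h1
    · exact (A.ip_pos hρ h0 h1).le
    · exact (A.ip_zero hρ (Or.inr h1)).ge

/-- opposite ticks -/
theorem dir_opp (t : ℕ) : dir (a (t + 3 * K)) = -dir (a t) := by
  rw [A.per_mul, Nat.cast_ofNat, dir_add_three]

theorem dir_full (t : ℕ) : dir (a (t + 6 * K)) = dir (a t) := by
  rw [A.per_mul, Nat.cast_ofNat, dir_add_six]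

theorem dir_mod (t : ℕ) : dir (a (t % (6 * K))) = dir (a t) := by
  have h1 := Nat.mod_add_div t (6 * K)
  have h2 : t = t % (6 * K) + (t / (6 * K) * 6) * K := by
    have e : 6 * K * (t / (6 * K)) = t / (6 * K) * 6 * K := by ring
    omega
  conv_rhs => rw [h2, A.per_mul]
  push_cast
  rw [mul_comm ((t / (6 * K) : ℕ) : ℝ) 6, dir_per]

end Tick

end Vale.Agent.P032.H913
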