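import Vale.Agent.P032W.H913.Tab

/-!
# P032: two direction classes at a six-coloured point

`tk u β` : the ticks `u + k` and `u + β + k`.

* `two_step` : a checked certificate for known letters `W` just before / after `u + k` and just before / after
  `u + β + k` gives one of the listed words after `u + β + k`.
-/

open Set Filter Topology Metric

noncomputable section

namespace Vale.Agent.P032.H913

open Vale.Agent.P032.Six Vale.Agent.P032.H892 Vale.Agent.P032.S5.H767
open Vale.Agent.P032.H139.Lrat (Sat Db check)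

/-- ticks of two classes -/
def tk (u β : ℝ) (t : ℕ) : ℝ := u + (t / 2 : ℕ) + (t % 2 : ℕ) * β

theorem tk_even (u β : ℝ) (k : ℕ) : tk u β (2 * k) = u + k := by
  unfold tk
  have h1 : 2 * k / 2 = k := by omega
  have h2 : 2 * k % 2 = 0 := by omega
  rw [h1, h2]; simp

theorem tk_odd (u β : ℝ) (k : ℕ) : tk u β (2 * k + 1) = u + β + k := by
  unfold tk
  have h1 : (2 * k + 1) / 2 = k := by omega
  have h2 : (2 * k + 1) % 2 = 1 := by omega
  rw [h1, h2]; push_cast; ring

theorem tk_tick {u β : ℝ} (h0 : 0 < β) (h1 : β < 1) : Tick 2 (tk u β) where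
  pos := by norm_num
  mono := by
    refine strictMono_nat_of_lt_succ fun t => ?_
    rcases Nat.even_or_odd' t with ⟨s, h | h⟩
    · rw [h, tk_even, tk_odd]; linarith
    · have e : t + 1 = 2 * (s + 1) := by omega
      rw [e, tk_even, h, tk_odd]; push_cast; linarith
  per := by
    intro t
    unfold tk
    have h1 : (t + 2) / 2 = t / 2 + 1 := by omega
    have h2 : (t + 2) % 2 = t % 2 := by omega
    rw [h1, h2]; push_cast; ring

/-- words from codes in base 8 -/
def wc (x k : ℕ) : ℕ := Nat.land (Nat.shiftRight x (Nat.mul 3 k)) 7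

/-- excluded words after the second class -/
def nwL (l : List (ℕ × ℕ)) : List ℕ := l.map fun x => nwm 2 73 1 x.1 (wc x.2)

variable {U : Fin 6 → Set ℂ} {T : ℂ → Set (Fin 6)} {z : ℂ}

/-- consistency of the domains with the known letters -/
def okD (DT : ℕ) (W : ℕ → ℕ → ℕ) : Bool :=
  (List.range 12).all fun t => (List.range 4).all fun w =>
    Nat.beq (dm DT (4 * t + w)) (bif Nat.blt (W t w) 6 then 4 ^ W t w else 1365)

theorem sy_two (C : C6 U T z) {σ : Fin 6 → Fin 6} (hσ : Function.Injective σ) {u β : ℝ} (h0 : 0 < β)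
    (h1 : β < 1) {W : ℕ → ℕ → ℕ} (hW : ∀ t < 12, ∀ w < 4, W t w < 6 → ltw U T z w (tk u β t) = cl σ (W t w))
    {DT : ℕ} (hD : okD DT W = true) :
    Sy 2 73 TB2 (Pt z (tk u β) pts2) (tk u β) σ U T z DT where
  tick := tk_tick h0 h1
  cen := C
  inj := hσ
  zero := Pt_zero _ _
  edge := fun p t hp ht hy => pt_edge ok2 (tk_tick h0 h1) z p t hp ht hy
  dom := by
    intro t w ht hw
    unfold okD at hD
    rw [List.all_eq_true] at hD
    have h2 := hD t (List.mem_range.2 (by omega))
    rw [List.all_eq_true] at h2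
    have h3 := Nat.eq_of_beq_eq_true (h2 w (List.mem_range.2 hw))
    rw [h3]
    by_cases h4 : W t w < 6
    · have h5 : Nat.blt (W t w) 6 = true := blt_iff.2 h4
      rw [h5, cond_true]
      refine ⟨W t w, h4, ?_, hW t (by omega) w hw h4⟩
      have : (4 : ℕ) ^ W t w = 2 ^ (2 * W t w) := by rw [pow_mul]; norm_num
      rw [this, Nat.testBit_two_pow]
      simp
    · have h5 : Nat.blt (W t w) 6 = false := by
        cases h6 : Nat.blt (W t w) 6
        · rfl
        · exact absurd (blt_iff.1 h6) h4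
      rw [h5, cond_false]
      obtain ⟨d, hd⟩ := (Finite.injective_iff_surjective.1 hσ) (ltw U T z w (tk u β t))
      refine ⟨d.val, d.isLt, ?_, ?_⟩
      · have := d.isLt
        generalize d.val = x at this
        interval_cases x <;> decide
      · unfold cl
        rw [← hd]
        congr 1
        apply Fin.ext
        exact (Nat.mod_eq_of_lt d.isLt).symm

/-- **Two-class steps from certificates.** -/
theorem two_step (C : C6 U T z) {σ : Fin 6 → Fin 6} (hσ : Function.Injective σ) {u β : ℝ} (h0 : 0 < β)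
    (h1 : β < 1) {W : ℕ → ℕ → ℕ} (hW : ∀ t < 12, ∀ w < 4, W t w < 6 → ltw U T z w (tk u β t) = cl σ (W t w))
    {DT : ℕ} (hD : okD DT W = true) {l : List (ℕ × ℕ)}
    (hl : (l.all fun x => Nat.blt x.1 4 && (List.range 6).all fun k => Nat.blt (wc x.2 k) 6) = true)
    {B fuel : ℕ} {t : Db} {cs hs : List ℕ} (h : check B fuel t (inl 2 73 TB2 DT cs (nwL l)) hs = true) :
    ∃ x ∈ l, ∀ k : ℕ, k < 6 → ltw U T z x.1 (u + β + k) = cl σ (wc x.2 k) := by
  by_contra hcon
  push Not at hcon
  have S := sy_two C hσ h0 h1 hW hD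
  refine engine S (l := nwL l) ?_ h
  intro m hm
  unfold nwL at hm
  obtain ⟨x, hx, rfl⟩ := List.mem_map.1 hm
  obtain ⟨k, hk, hne⟩ := hcon x hx
  rw [List.all_eq_true] at hl
  have h2 := hl x hx
  rw [Bool.and_eq_true, List.all_eq_true] at h2
  refine nwm_sat S (blt_iff.1 h2.1) hk (blt_iff.1 (h2.2 k (List.mem_range.2 hk))) ?_
  rw [tk_odd]; exact hne

/-- words of eight letter classes: `4 j + w` = the letter `w` of the class `j` -/
def Wl (L : List ℕ) (t w : ℕ) : ℕ := wc (L.getD (4 * (t % 2) + w) 0) (t / 2)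

/-- **Two-class steps**, the known letters as eight words in base 8 (digit 6 = unknown). -/
theorem step8 (C : C6 U T z) {σ : Fin 6 → Fin 6} (hσ : Function.Injective σ) {u β : ℝ} (h0 : 0 < β)
    (h1 : β < 1) {L : List ℕ} (hA : ∀ w < 4, ∀ k : ℕ, k < 6 → wc (L.getD w 0) k < 6 →
      ltw U T z w (u + k) = cl σ (wc (L.getD w 0) k))
    (hB : ∀ w < 4, ∀ k : ℕ, k < 6 → wc (L.getD (4 + w) 0) k < 6 →
      ltw U T z w (u + β + k) = cl σ (wc (L.getD (4 + w) 0) k))
    {DT : ℕ} (hD : okD DT (Wl L) = true) {l : List (ℕ × ℕ)}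
    (hl : (l.all fun x => Nat.blt x.1 4 && (List.range 6).all fun k => Nat.blt (wc x.2 k) 6) = true)
    {B fuel : ℕ} {t : Db} {cs hs : List ℕ} (h : check B fuel t (inl 2 73 TB2 DT cs (nwL l)) hs = true) :
    ∃ x ∈ l, ∀ k : ℕ, k < 6 → ltw U T z x.1 (u + β + k) = cl σ (wc x.2 k) := by
  refine two_step C hσ h0 h1 (W := Wl L) ?_ hD hl h
  intro t ht w hw hlt
  unfold Wl at hlt ⊢
  rcases Nat.even_or_odd' t with ⟨s, e | e⟩
  · have e1 : t % 2 = 0 := by omega
    have e2 : t / 2 = s := by omega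
    rw [e1, e2] at hlt ⊢
    rw [e, tk_even]
    rw [mul_zero, zero_add] at hlt ⊢
    exact hA w hw s (by omega) hlt
  · have e1 : t % 2 = 1 := by omega
    have e2 : t / 2 = s := by omega
    rw [e1, e2] at hlt ⊢
    rw [e, tk_odd]
    rw [mul_one] at hlt ⊢
    exact hB w hw s (by omega) hlt

end Vale.Agent.P032.H913
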